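import Mathlib.RingTheory.MvPolynomial.WeightedHomogeneous
import Mathlib.RingTheory.MvPolynomial.Homogeneous
import Mathlib.Algebra.Field.ZMod

/-!
# P221: functionals on polynomial rings, the operators `r_j`

Index conventions (all indices start at `0`):

* `S = MvPolynomial (Fin n) k`; the variable `X a` is `v_{a+1}`, of weight `p^(a+1) - 1`;
* the `T`-monomials are `E : ℕ →₀ ℕ`; the variable `j` is `T_{j+1}`, of weight `p^(j+1) - 1`;
* the special indices `qi p n l = p^(n+1+l) - 2`, of weight `p^(n+1+l) - 1`.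
-/

open MvPolynomial

namespace Vale.Agent.P221

/-- weight of `T_{j+1}` -/
def wT (p : ℕ) (j : ℕ) : ℤ := (p : ℤ) ^ (j + 1) - 1

/-- weight of `v_{a+1}` -/
def wV (p n : ℕ) (a : Fin n) : ℤ := (p : ℤ) ^ ((a : ℕ) + 1) - 1

/-- degree of a `T`-monomial -/
noncomputable def dT (p : ℕ) (E : ℕ →₀ ℕ) : ℤ := Finsupp.weight (wT p) E

/-- weight of the `l`-th special generator -/
def dq (p n : ℕ) (l : ℕ) : ℤ := (p : ℤ) ^ (n + 1 + l) - 1

/-- the `l`-th special index -/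
def qi (p n : ℕ) (l : ℕ) : ℕ := p ^ (n + 1 + l) - 2

variable (p n : ℕ) (k : Type) [CommRing k]

/-- functionals on `k[T]` (or `S`-linear functionals on `S[T]`) with values in `S = k[v_1..v_n]` -/
abbrev Fnl : Type := (ℕ →₀ ℕ) → MvPolynomial (Fin n) k

variable {n k}

/-- functionals of degree `t` -/
def IsDeg (t : ℤ) (φ : Fnl n k) : Prop :=
  ∀ E, IsWeightedHomogeneous (wV p n) (φ E) (t + dT p E)

/-- the action of `f ∈ S[T]` on functionals: `(f φ)(g) = φ (f g)` -/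
noncomputable def op (f : MvPolynomial ℕ (MvPolynomial (Fin n) k)) (φ : Fnl n k) : Fnl n k :=
  fun E => ∑ E' ∈ f.support, f.coeff E' * φ (E + E')

variable (n k)

/-- `R l = ∑_i v_i T_{j-i}^{p^i}`, `j = n + 1 + l`, `1 ≤ i ≤ n` -/
noncomputable def R (l : ℕ) : MvPolynomial ℕ (MvPolynomial (Fin n) k) :=
  ∑ a : Fin n, C (X a) * X (n - 1 - a + l) ^ p ^ ((a : ℕ) + 1)

/-- the ideal `(v_1, …, v_n)` -/
noncomputable def Iv : Ideal (MvPolynomial (Fin n) k) := Ideal.span (Set.range X)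

/-! ### Specs (A) -/

/-- (A1) the leading term claim, for functionals homogeneous of polynomial degree `s` -/
def SpecA1 : Prop :=
  ∀ (t : ℤ), 0 ≤ t → ∀ (l s : ℕ) (φ : Fnl n k), IsDeg p (t + dq p n l) φ →
    (∀ E, (φ E).IsHomogeneous s) → (∀ m < l, op (R p n k m) φ = 0) →
    ∃ ψ : Fnl n k, IsDeg p t ψ ∧ (∀ E, (ψ E).IsHomogeneous (s - 1)) ∧
      (∀ m < l, op (R p n k m) ψ = 0) ∧ op (R p n k l) ψ = φ

/-- the operators `ρ l`: homogeneous, and `ρ l = - R l` modulo `I^2` and the previous ones -/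
structure IsRho (ρ : ℕ → MvPolynomial ℕ (MvPolynomial (Fin n) k)) : Prop where
  hom : ∀ l E, IsWeightedHomogeneous (wV p n) ((ρ l).coeff E) (dq p n l - dT p E)
  symb : ∀ l, ∃ h : ℕ → MvPolynomial ℕ (MvPolynomial (Fin n) k), ∀ E,
    (ρ l + R p n k l + ∑ m ∈ Finset.range l, h m * ρ m).coeff E ∈ (Iv n k) ^ 2

/-- (A2) surjectivity for the operators `ρ l` -/
def SpecA2 : Prop :=
  ∀ (ρ : ℕ → MvPolynomial ℕ (MvPolynomial (Fin n) k)), IsRho p n k ρ →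
    ∀ (t : ℤ), 0 ≤ t → ∀ (l : ℕ) (φ : Fnl n k), IsDeg p (t + dq p n l) φ →
    (∀ m < l, op (ρ m) φ = 0) →
    ∃ ψ : Fnl n k, IsDeg p t ψ ∧ (∀ m < l, op (ρ m) ψ = 0) ∧ op (ρ l) ψ = φ

/-- (A3) `lim¹ = 0` (compactness, `k = ZMod p` finite); no condition on `t`. -/
def SpecA3 : Prop :=
  ∀ (ρ : ℕ → MvPolynomial ℕ (MvPolynomial (Fin n) (ZMod p))) (t : ℤ)
    (φ : ℕ → Fnl n (ZMod p)), (∀ m, IsDeg p t (φ m)) → (∀ m, ∀ j < m, op (ρ j) (φ m) = 0) →
    ∃ ψ : ℕ → Fnl n (ZMod p), (∀ m, IsDeg p t (ψ m)) ∧ (∀ m, ∀ j < m, op (ρ j) (ψ m) = 0) ∧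
      ∀ m, φ m = ψ m - ψ (m + 1)

end Vale.Agent.P221
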