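import Vale.Agent.P221.Defs
import Vale.Agent.P251.F.VGen

/-!
# P221: forms, the rings `k[v, b]` and `k[T, Y_P]`, specs (B)
-/

open MvPolynomial

namespace Vale.Agent.P221

open Vale.Agent.P251.F Vale.Agent.P217

variable (p n : ℕ)

/-- the special indices -/
def IsQ (m : ℕ) : Prop := ∃ l, m = qi p n l

/-- the indices which are not special -/
abbrev PI : Type := {m : ℕ // ¬ IsQ p n m}

/-- A form: the values of the generators `Y_m` (`|Y_m| = m + 1`) in `k[v_1, …, v_n]`. -/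
structure Form where
  /-- the value of `Y_m` -/
  pol : ℕ → MvPolynomial (Fin n) (ZMod p)
  hom : ∀ m, IsWeightedHomogeneous (wV p n) (pol m) ((m : ℤ) + 1)
  std : ∀ a : Fin n, pol (p ^ ((a : ℕ) + 1) - 2) = X a

variable {p n}

theorem cast_p_eq_zero {σ : Type*} : ((p : ℕ) : MvPolynomial σ (ZMod p)) = 0 := by
  rw [← map_natCast (MvPolynomial.C (σ := σ) (R := ZMod p)), CharP.cast_eq_zero, map_zero]

variable [Fact p.Prime]

/-- the law of a form: `yF p P.law m = P.pol m` -/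
noncomputable def Form.law (P : Form p n) : Law (MvPolynomial (Fin n) (ZMod p)) :=
  lawOfY (p := p) cast_p_eq_zero P.pol

theorem Form.yF_law (P : Form p n) (m : ℕ) : yF p P.law m = P.pol m := yF_lawOfY _ _ _

variable (p n)

/-- the ring `k[v, b]` -/
abbrev VB : Type := MvPolynomial (Fin n ⊕ ℕ) (ZMod p)

/-- the weights of `k[v, b]`: `|b_m| = m + 1` -/
def wVB : Fin n ⊕ ℕ → ℤ := Sum.elim (wV p n) (fun m => (m : ℤ) + 1)

/-- the ring `k[T, Y_P]` -/
abbrev TY : Type := MvPolynomial (ℕ ⊕ PI p n) (ZMod p)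

/-- the weights of `k[T, Y_P]` -/
def wTY : ℕ ⊕ PI p n → ℤ := Sum.elim (wT p) (fun m => ((m : ℕ) : ℤ) + 1)

variable {p n}

/-- the law `G` over `k[v, b]` -/
noncomputable def Form.G (P : Form p n) : Law (VB p n) :=
  P.law.map (rename (Sum.inl : Fin n → Fin n ⊕ ℕ) :
    MvPolynomial (Fin n) (ZMod p) →ₐ[ZMod p] VB p n).toRingHom

/-- the law `F = g • G` over `k[v, b]`, `g = x + ∑ b_m x^(m+2)` -/
noncomputable def Form.F (P : Form p n) : Law (VB p n) :=
  strictMk (fun m => (X (Sum.inr m) : VB p n)) • P.G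

/-- `k[T, Y_P] → k[v, b]`, `T_{j+1} ↦ b_{p^(j+1) - 2}`, `Y_m ↦ yF p F m` -/
noncomputable def Form.chg (P : Form p n) : TY p n →ₐ[ZMod p] VB p n :=
  aeval (Sum.elim (fun j => X (Sum.inr (p ^ (j + 1) - 2))) (fun m => yF p P.F (m : ℕ)))

/-! ### Specs (B) -/

variable (p n)

/-- (B1) triangular change of generators -/
def SpecB1 : Prop := ∀ P : Form p n, Function.Bijective P.chg

/-- (B2) the symbol of the special generators: for a source form `P` and a target form `P'` -/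
def SpecB2 : Prop :=
  ∀ (P P' : Form p n) (π : VB p n →ₐ[ZMod p] MvPolynomial ℕ (MvPolynomial (Fin n) (ZMod p))),
    (∀ j, π (X (Sum.inr (p ^ (j + 1) - 2))) = X j) →
    (∀ m, ¬ IsQ p n m → π (yF p P.F m) = C (P'.pol m)) →
    IsRho p n (ZMod p) (fun l => π (yF p P.F (qi p n l)) - C (P'.pol (qi p n l)))

/-- (B3) weights -/
def SpecB3 : Prop :=
  ∀ (P : Form p n) (m : ℕ), IsWeightedHomogeneous (wVB p n) (yF p P.F m) ((m : ℤ) + 1)

end Vale.Agent.P221
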