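import Mathlib.Algebra.Module.LinearMap.Basic
import Mathlib.Algebra.Module.Pi
import Mathlib.Algebra.Field.ZMod
import Mathlib.LinearAlgebra.Prod
import Mathlib.Tactic.Abel

/-!
# P221: graded modules over `k[Y_0, Y_1, …]`, `|Y_m| = m + 1`

* `GM k` : `ℤ`-graded `k`-modules with commuting operators `act m : A i → A (i + m + 1)`.
* `GM.Fn M R t` : families of linear maps `M.A i → R.A (i + t)` (functionals of degree `t`).
* `GM.Com`, `GM.Th` : commuting with the operator `m`; `Th m φ = φ ∘ Y_m - Y_m ∘ φ`.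
* `GM.Lin P M N` : degree preserving maps commuting with `Y_i`, `i ∈ P`.
* `GM.Proj P M` : every surjection onto `M` which is linear over `Y_i`, `i ∈ P`, splits.
* `GM.Hol P q M R t m` : the functionals of degree `t` which commute with the `Y_i`, `i ∈ P`, and with
  `Y_{q l}`, `l < m`.
* `GM.KK P q M R t₀` : the class of modules used in the universal coefficient theorem.
-/

namespace Vale.Agent.P221

/-- graded modules over `k[Y_0, Y_1, …]`, `|Y_m| = m + 1` -/
structure GM (k : Type) [CommRing k] where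
  /-- the homogeneous parts -/
  A : ℤ → Type
  [grp : ∀ i, AddCommGroup (A i)]
  [mod : ∀ i, Module k (A i)]
  /-- the operator `Y_m` -/
  act (m : ℕ) {i j : ℤ} (h : i + ((m : ℤ) + 1) = j) : A i →ₗ[k] A j
  comm (m n : ℕ) {i j j' l : ℤ} (h1 : i + ((m : ℤ) + 1) = j) (h2 : j + ((n : ℤ) + 1) = l)
    (h3 : i + ((n : ℤ) + 1) = j') (h4 : j' + ((m : ℤ) + 1) = l) (x : A i) :
    act n h2 (act m h1 x) = act m h4 (act n h3 x)

attribute [instance] GM.grp GM.mod

namespace GM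

variable {k : Type} [CommRing k]

/-- pairs of degrees with difference `t` -/
abbrev Ix (t : ℤ) : Type := {q : ℤ × ℤ // q.1 + t = q.2}

/-- pairs of degrees with difference `t` -/
abbrev ix {t i j : ℤ} (h : i + t = j) : Ix t := ⟨(i, j), h⟩

/-- functionals of degree `t` -/
abbrev Fn (M R : GM k) (t : ℤ) : Type := ∀ q : Ix t, M.A q.1.1 →ₗ[k] R.A q.1.2

/-- `φ` commutes with `Y_m` -/
def Com {M R : GM k} {t : ℤ} (m : ℕ) (φ : Fn M R t) : Prop :=
  ∀ (i j i' j' : ℤ) (h : i + t = j) (h' : i' + t = j') (h1 : i + ((m : ℤ) + 1) = i')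
    (h2 : j + ((m : ℤ) + 1) = j') (x : M.A i),
    φ (ix h') (M.act m h1 x) = R.act m h2 (φ (ix h) x)

/-- `Th m φ = φ ∘ Y_m - Y_m ∘ φ` -/
def Th {M R : GM k} {t t' : ℤ} (m : ℕ) (ht : t + ((m : ℤ) + 1) = t') :
    Fn M R t →ₗ[k] Fn M R t' where
  toFun φ := fun q =>
    (φ (ix (i := q.1.1 + ((m : ℤ) + 1)) (j := q.1.2) (by have := q.2; omega))) ∘ₗ M.act m rfl -
      R.act m (i := q.1.1 + t) (j := q.1.2) (by have := q.2; omega) ∘ₗ φ (ix rfl)
  map_add' φ ψ := by
    funext q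
    ext x
    simp only [Pi.add_apply, LinearMap.sub_apply, LinearMap.add_apply, LinearMap.comp_apply,
      map_add]
    abel
  map_smul' c φ := by
    funext q
    ext x
    simp only [Pi.smul_apply, LinearMap.sub_apply, LinearMap.smul_apply, LinearMap.comp_apply,
      map_smul, RingHom.id_apply, smul_sub]

theorem Th_apply {M R : GM k} {t t' : ℤ} (m : ℕ) (ht : t + ((m : ℤ) + 1) = t') (φ : Fn M R t)
    {i i' j j' : ℤ} (h : i + t' = j) (h1 : i + ((m : ℤ) + 1) = i') (h2 : i' + t = j)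
    (h3 : i + t = j') (h4 : j' + ((m : ℤ) + 1) = j) (x : M.A i) :
    Th m ht φ (ix h) x = φ (ix h2) (M.act m h1 x) - R.act m h4 (φ (ix h3) x) := by
  subst h1 h3
  rfl

theorem com_iff_Th {M R : GM k} {t t' : ℤ} (m : ℕ) (ht : t + ((m : ℤ) + 1) = t')
    (φ : Fn M R t) : Com m φ ↔ Th m ht φ = 0 := by
  constructor
  · intro h
    funext ⟨⟨i, j⟩, hij⟩
    ext x
    have := Th_apply m ht φ hij rfl (by omega) rfl (by omega) x
    refine this.trans ?_
    rw [h i (i + t) _ j rfl (by omega) rfl (by omega) x, sub_self]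
    rfl
  · intro h i j i' j' h1 h2 h3 h4 x
    have h5 : Th m ht φ (ix (i := i) (j := j') (by omega)) x = 0 := by rw [h]; rfl
    rw [Th_apply m ht φ _ h3 h2 h1 h4] at h5
    exact sub_eq_zero.1 h5

theorem Th_comm {M R : GM k} {t t1 t2 t3 : ℤ} (m n : ℕ) (h1 : t + ((m : ℤ) + 1) = t1)
    (h2 : t1 + ((n : ℤ) + 1) = t3) (h3 : t + ((n : ℤ) + 1) = t2) (h4 : t2 + ((m : ℤ) + 1) = t3)
    (φ : Fn M R t) : Th n h2 (Th m h1 φ) = Th m h4 (Th n h3 φ) := by
  funext ⟨⟨i, j⟩, hij⟩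
  ext x
  obtain ⟨a, ha⟩ : ∃ a, i + ((m : ℤ) + 1) = a := ⟨_, rfl⟩
  obtain ⟨b, hb⟩ : ∃ b, i + ((n : ℤ) + 1) = b := ⟨_, rfl⟩
  obtain ⟨c, hc⟩ : ∃ c, a + ((n : ℤ) + 1) = c := ⟨_, rfl⟩
  have hij' : i + t3 = j := hij
  have e1 := Th_apply n h2 (Th m h1 φ) hij hb (j' := i + t1) (by omega) rfl (by omega) x
  have e2 := Th_apply m h4 (Th n h3 φ) hij ha (j' := i + t2) (by omega) rfl (by omega) x
  have e3 := Th_apply m h1 φ (i := b) (j := j) (by omega) (i' := c) (by omega) (by omega)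
    (j' := i + t2) (by omega) (by omega) (M.act n hb x)
  have e4 := Th_apply m h1 φ (i := i) (j := i + t1) rfl ha (by omega)
    (j' := i + t) rfl (by omega) x
  have e5 := Th_apply n h3 φ (i := a) (j := j) (by omega) hc (by omega)
    (j' := i + t1) (by omega) (by omega) (M.act m ha x)
  have e6 := Th_apply n h3 φ (i := i) (j := i + t2) rfl hb (by omega)
    (j' := i + t) rfl (by omega) x
  refine e1.trans (Eq.trans ?_ e2.symm)
  rw [e3, e4, e5, e6, map_sub, map_sub, M.comm m n ha hc hb (by omega) x]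
  have e8 : R.act n (i := i + t1) (j := j) (by omega) (R.act m (i := i + t) (j := i + t1) (by omega)
      (φ (ix rfl) x)) = R.act m (i := i + t2) (j := j) (by omega)
      (R.act n (i := i + t) (j := i + t2) (by omega) (φ (ix rfl) x)) :=
    R.comm m n _ _ _ _ _
  rw [e8, sub_sub_sub_comm]

/-! ### Linear maps -/

/-- degree preserving maps commuting with `Y_m`, `m ∈ P` -/
structure Lin (P : Set ℕ) (M N : GM k) where
  /-- the maps -/
  f : ∀ i, M.A i →ₗ[k] N.A i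
  comm : ∀ m ∈ P, ∀ {i j : ℤ} (h : i + ((m : ℤ) + 1) = j) (x : M.A i),
    f j (M.act m h x) = N.act m h (f i x)

/-- identity -/
def Lin.id (P : Set ℕ) (M : GM k) : Lin P M M where
  f _ := LinearMap.id
  comm _ _ _ _ _ _ := rfl

/-- composition, in diagrammatic order -/
def Lin.comp {P : Set ℕ} {M N Q : GM k} (f : Lin P M N) (g : Lin P N Q) : Lin P M Q where
  f i := g.f i ∘ₗ f.f i
  comm m hm i j h x := by
    simp only [LinearMap.comp_apply, f.comm m hm, g.comm m hm]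

/-- restriction of scalars -/
def Lin.mono {P P' : Set ℕ} (h : P' ⊆ P) {M N : GM k} (f : Lin P M N) : Lin P' M N where
  f := f.f
  comm m hm := f.comm m (h hm)

/-- every surjection onto `M` which is linear over the `Y_m`, `m ∈ P`, splits -/
def Proj (P : Set ℕ) (M : GM k) : Prop :=
  ∀ (Q : GM k) (π : Lin P Q M), (∀ i, Function.Surjective (π.f i)) →
    ∃ s : Lin P M Q, ∀ i x, π.f i (s.f i x) = x

/-- the pull back of a functional -/
def Fn.pull {P : Set ℕ} {M N R : GM k} (f : Lin P M N) {t : ℤ} : Fn N R t →ₗ[k] Fn M R t where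
  toFun φ := fun q => φ q ∘ₗ f.f q.1.1
  map_add' _ _ := rfl
  map_smul' _ _ := rfl

theorem Fn.pull_apply {P : Set ℕ} {M N R : GM k} (f : Lin P M N) {t : ℤ} (φ : Fn N R t)
    (q : Ix t) (x : M.A q.1.1) : Fn.pull f φ q x = φ q (f.f q.1.1 x) := rfl

theorem Com.pull {P : Set ℕ} {M N R : GM k} (f : Lin P M N) {t : ℤ} {φ : Fn N R t} {m : ℕ}
    (hm : m ∈ P) (h : Com m φ) : Com m (Fn.pull f φ) := by
  intro i j i' j' h1 h2 h3 h4 x
  change φ (ix h2) (f.f i' (M.act m h3 x)) = R.act m h4 (φ (ix h1) (f.f i x))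
  rw [f.comm m hm h3 x]
  exact h i j i' j' h1 h2 h3 h4 _

theorem Th_pull {P : Set ℕ} {M N R : GM k} (f : Lin P M N) {t t' : ℤ} {m : ℕ}
    (hm : m ∈ P) (ht : t + ((m : ℤ) + 1) = t') (φ : Fn N R t) :
    Th m ht (Fn.pull f φ) = Fn.pull f (Th m ht φ) := by
  funext ⟨⟨i, j⟩, hij⟩
  have hij' : i + t' = j := hij
  ext x
  rw [Fn.pull_apply]
  have e1 := Th_apply m ht (Fn.pull f φ) hij' rfl (by omega) (j' := i + t) rfl (by omega) x
  have e2 := Th_apply m ht φ hij' rfl (by omega) (j' := i + t) rfl (by omega) (f.f i x)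
  refine e1.trans (Eq.trans ?_ e2.symm)
  rw [← f.comm m hm]
  rfl

theorem Com.add {M R : GM k} {t : ℤ} {m : ℕ} {φ ψ : Fn M R t} (h : Com m φ) (h' : Com m ψ) :
    Com m (φ + ψ) := by
  rw [com_iff_Th m rfl] at h h' ⊢
  rw [map_add, h, h', add_zero]

theorem Com.sub {M R : GM k} {t : ℤ} {m : ℕ} {φ ψ : Fn M R t} (h : Com m φ) (h' : Com m ψ) :
    Com m (φ - ψ) := by
  rw [com_iff_Th m rfl] at h h' ⊢
  rw [map_sub, h, h', sub_zero]

theorem Com.zero {M R : GM k} {t : ℤ} {m : ℕ} : Com m (0 : Fn M R t) := by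
  rw [com_iff_Th m rfl, map_zero]

/-- the functionals which commute with the `Y_i`, `i ∈ P`, and with `Y_{q l}`, `l < m` -/
structure Hol (P : Set ℕ) (q : ℕ → ℕ) {M R : GM k} {t : ℤ} (m : ℕ) (φ : Fn M R t) : Prop where
  com : ∀ i ∈ P, Com i φ
  com' : ∀ l < m, Com (q l) φ

section Hol

variable {P : Set ℕ} {q : ℕ → ℕ} {M R : GM k} {t : ℤ} {m : ℕ}

theorem Hol.add {φ ψ : Fn M R t} (h : Hol P q m φ) (h' : Hol P q m ψ) : Hol P q m (φ + ψ) :=
  ⟨fun i hi => (h.com i hi).add (h'.com i hi), fun l hl => (h.com' l hl).add (h'.com' l hl)⟩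

theorem Hol.sub {φ ψ : Fn M R t} (h : Hol P q m φ) (h' : Hol P q m ψ) : Hol P q m (φ - ψ) :=
  ⟨fun i hi => (h.com i hi).sub (h'.com i hi), fun l hl => (h.com' l hl).sub (h'.com' l hl)⟩

theorem Hol.zero : Hol P q m (0 : Fn M R t) := ⟨fun _ _ => Com.zero, fun _ _ => Com.zero⟩

theorem Hol.mono {m' : ℕ} (hm : m' ≤ m) {φ : Fn M R t} (h : Hol P q m φ) : Hol P q m' φ :=
  ⟨h.com, fun l hl => h.com' l (hl.trans_le hm)⟩

theorem Hol.pull {M' : GM k} (f : Lin Set.univ M' M) {φ : Fn M R t} (h : Hol P q m φ) :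
    Hol P q m (Fn.pull f φ) :=
  ⟨fun i hi => (h.com i hi).pull f (Set.mem_univ _), fun l hl => (h.com' l hl).pull f
    (Set.mem_univ _)⟩

theorem Hol.Th {φ : Fn M R t} (h : Hol P q m φ) (i : ℕ) {t' : ℤ} (ht : t + ((i : ℤ) + 1) = t') :
    Hol P q m (Th i ht φ) := by
  constructor
  · intro j hj
    rw [com_iff_Th j rfl, Th_comm i j ht rfl (t2 := t + ((j : ℤ) + 1)) rfl (by omega),
      (com_iff_Th j rfl φ).1 (h.com j hj), map_zero]
  · intro l hl
    rw [com_iff_Th (q l) rfl, Th_comm i (q l) ht rfl (t2 := t + ((q l : ℤ) + 1)) rfl (by omega),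
      (com_iff_Th (q l) rfl φ).1 (h.com' l hl), map_zero]

theorem Hol.succ {φ : Fn M R t} (h : Hol P q m φ) (h' : Com (q m) φ) : Hol P q (m + 1) φ :=
  ⟨h.com, fun l hl => by
    rcases Nat.lt_succ_iff_lt_or_eq.1 hl with h1 | rfl
    · exact h.com' l h1
    · exact h'⟩

end Hol

/-! ### Short exact sequences -/

/-- short exact sequences `0 → M' → M → M'' → 0` -/
structure Ses (M' M M'' : GM k) where
  /-- the inclusion -/
  f : Lin Set.univ M' M
  /-- the projection -/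
  g : Lin Set.univ M M''
  inj : ∀ i, Function.Injective (f.f i)
  surj : ∀ i, Function.Surjective (g.f i)
  exact : ∀ i (x : M.A i), g.f i x = 0 ↔ ∃ y, f.f i y = x

namespace Ses

variable {M' M M'' R : GM k} (S : Ses M' M M'') {P : Set ℕ} {q : ℕ → ℕ} {t : ℤ} {m : ℕ}

theorem gf (i : ℤ) (y : M'.A i) : S.g.f i (S.f.f i y) = 0 := (S.exact i _).2 ⟨y, rfl⟩

/-- functionals which vanish on `M'` come from `M''` -/
theorem exists_of_pull_eq_zero {φ : Fn M R t} (h : Fn.pull S.f φ = 0) :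
    ∃ χ : Fn M'' R t, Fn.pull S.g χ = φ := by
  have hk : ∀ (r : Ix t) (x y : M.A r.1.1), S.g.f _ x = S.g.f _ y → φ r x = φ r y := by
    intro r x y hxy
    have h1 : S.g.f _ (x - y) = 0 := by rw [map_sub, hxy, sub_self]
    obtain ⟨z, hz⟩ := (S.exact _ _).1 h1
    have h2 : φ r (S.f.f _ z) = 0 := by
      rw [← Fn.pull_apply, h]
      rfl
    rw [hz, map_sub] at h2
    exact sub_eq_zero.1 h2
  refine ⟨fun r => ?_, ?_⟩
  · exact
      { toFun := fun z => φ r (Function.surjInv (S.surj r.1.1) z)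
        map_add' := fun z w => by
          rw [← map_add]
          apply hk
          rw [map_add, Function.surjInv_eq (S.surj _), Function.surjInv_eq (S.surj _),
            Function.surjInv_eq (S.surj _)]
        map_smul' := fun c z => by
          rw [RingHom.id_apply, ← map_smul]
          apply hk
          rw [map_smul, Function.surjInv_eq (S.surj _), Function.surjInv_eq (S.surj _)] }
  · funext r
    ext x
    change φ r (Function.surjInv (S.surj r.1.1) (S.g.f _ x)) = φ r x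
    apply hk
    rw [Function.surjInv_eq (S.surj _)]

theorem pull_g_injective {χ χ' : Fn M'' R t} (h : Fn.pull S.g χ = Fn.pull S.g χ') : χ = χ' := by
  funext r
  ext x
  obtain ⟨y, rfl⟩ := S.surj _ x
  exact congrArg (fun z : Fn M R t => z r y) h

theorem com_of_pull {χ : Fn M'' R t} {i : ℕ} (h : Com i (Fn.pull S.g χ)) : Com i χ := by
  rw [com_iff_Th i rfl] at h ⊢
  rw [Th_pull S.g (Set.mem_univ _)] at h
  exact S.pull_g_injective (h.trans (map_zero _).symm)

theorem hol_of_pull {χ : Fn M'' R t} (h : Hol P q m (Fn.pull S.g χ)) : Hol P q m χ :=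
  ⟨fun i hi => S.com_of_pull (h.com i hi), fun l hl => S.com_of_pull (h.com' l hl)⟩

/-- a retraction of `M' → M` over the `Y_i`, `i ∈ P`, if `M''` is projective -/
theorem exists_retraction (hM : Proj P M'') : ∃ r : Lin P M M', ∀ i y, r.f i (S.f.f i y) = y := by
  obtain ⟨s, hs⟩ := hM M (S.g.mono (Set.subset_univ _)) S.surj
  have h1 : ∀ i (x : M.A i), ∃ y, S.f.f i y = x - s.f i (S.g.f i x) := fun i x => by
    rw [← S.exact, map_sub]
    change S.g.f i x - S.g.f i (s.f i (S.g.f i x)) = 0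
    have := hs i (S.g.f i x)
    change S.g.f i (s.f i (S.g.f i x)) = _ at this
    rw [this, sub_self]
  choose y hy using h1
  refine ⟨⟨fun i => ⟨⟨fun x => y i x, fun a b => ?_⟩, fun c a => ?_⟩, ?_⟩, ?_⟩
  · apply S.inj
    rw [(S.f.f i).map_add, hy, hy, hy, map_add, map_add]
    abel
  · apply S.inj
    change S.f.f i (y i (c • a)) = S.f.f i (c • y i a)
    rw [(S.f.f i).map_smul, hy, hy, map_smul, map_smul, smul_sub]
  · intro a ha i j h x
    apply S.inj
    change S.f.f j (y j (M.act a h x)) = S.f.f j (M'.act a h (y i x))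
    rw [hy, S.f.comm a (Set.mem_univ _), hy, map_sub, S.g.comm a (Set.mem_univ _),
      s.comm a ha]
  · intro i z
    apply S.inj
    change S.f.f i (y i (S.f.f i z)) = _
    rw [hy, S.gf, map_zero, sub_zero]

end Ses

/-- The class of modules used in the universal coefficient theorem: `M` is projective over the
`Y_i`, `i ∈ P`, the operators `Y_{q m}` are surjective on the functionals of degree `t ≥ t₀` which
are linear over the `Y_i`, `i ∈ P`, and the `Y_{q l}`, `l < m`, and a `lim¹` vanishes. -/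
structure KK (P : Set ℕ) (q : ℕ → ℕ) (R M : GM k) (t₀ : ℤ) : Prop where
  proj : Proj P M
  surj : ∀ t, t₀ ≤ t → ∀ (m : ℕ) {t' : ℤ} (ht : t + ((q m : ℤ) + 1) = t') (χ : Fn M R t'),
    Hol P q m χ → ∃ φ : Fn M R t, Hol P q m φ ∧ Th (q m) ht φ = χ
  lim : ∀ t, t₀ ≤ t → ∀ φ : ℕ → Fn M R t, (∀ m, Hol P q m (φ m)) →
    ∃ ψ : ℕ → Fn M R t, (∀ m, Hol P q m (ψ m)) ∧ ∀ m, φ m = ψ m - ψ (m + 1)

theorem KK.mono {P : Set ℕ} {q : ℕ → ℕ} {R M : GM k} {t₀ t₁ : ℤ} (h : KK P q R M t₀)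
    (ht : t₀ ≤ t₁) : KK P q R M t₁ :=
  ⟨h.proj, fun t h1 => h.surj t (ht.trans h1), fun t h1 => h.lim t (ht.trans h1)⟩

namespace Ses

variable {M' M M'' R : GM k} (S : Ses M' M M'') {P : Set ℕ} {q : ℕ → ℕ} {t₀ t : ℤ}

/-- lifting of functionals from `M'` to `M`, finite stage -/
theorem lift (h'' : KK P q R M'' t₀) (ht : t₀ ≤ t) (m : ℕ) {φ : Fn M' R t}
    (hφ : Hol P q m φ) : ∃ ψ : Fn M R t, Hol P q m ψ ∧ Fn.pull S.f ψ = φ := by
  induction m with
  | zero =>
    obtain ⟨r, hr⟩ := S.exists_retraction h''.proj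
    refine ⟨Fn.pull r φ, ⟨fun i hi => (hφ.com i hi).pull r hi, fun l hl => absurd hl (by omega)⟩,
      ?_⟩
    funext a
    ext x
    rw [Fn.pull_apply, Fn.pull_apply, hr]
  | succ m ih =>
    obtain ⟨ψ, hψ, rfl⟩ := ih (hφ.mono (Nat.le_succ m))
    have h1 : Fn.pull S.f (Th (q m) rfl ψ) = 0 := by
      rw [← Th_pull S.f (Set.mem_univ _)]
      exact (com_iff_Th _ _ _).1 (hφ.com' m (Nat.lt_succ_self m))
    obtain ⟨χ, hχ⟩ := S.exists_of_pull_eq_zero h1
    have h2 : Hol P q m χ := S.hol_of_pull (by rw [hχ]; exact hψ.Th (q m) rfl)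
    obtain ⟨χ', h3, h4⟩ := h''.surj t ht m rfl χ h2
    refine ⟨ψ - Fn.pull S.g χ', (hψ.sub (h3.pull S.g)).succ ?_, ?_⟩
    · rw [com_iff_Th (q m) rfl, map_sub, Th_pull S.g (Set.mem_univ _), h4, hχ, sub_self]
    · rw [map_sub]
      have h5 : Fn.pull S.f (Fn.pull S.g χ') = 0 := by
        funext a
        ext x
        rw [Fn.pull_apply, Fn.pull_apply, S.gf, map_zero]
        rfl
      rw [h5, sub_zero]

theorem pull_pull (χ : Fn M'' R t) : Fn.pull S.f (Fn.pull S.g χ) = 0 := by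
  funext a
  ext x
  rw [Fn.pull_apply, Fn.pull_apply, S.gf, map_zero]
  rfl

/-- lifting of functionals from `M'` to `M` -/
theorem lift_all (h'' : KK P q R M'' t₀) (ht : t₀ ≤ t) {φ : Fn M' R t}
    (hφ : ∀ m, Hol P q m φ) : ∃ ψ : Fn M R t, (∀ m, Hol P q m ψ) ∧ Fn.pull S.f ψ = φ := by
  choose ψ hψ hψ' using fun m => S.lift h'' ht m (hφ m)
  have h1 : ∀ m, ∃ χ : Fn M'' R t, Hol P q m χ ∧ Fn.pull S.g χ = ψ m - ψ (m + 1) := fun m => by
    have h2 : Fn.pull S.f (ψ m - ψ (m + 1)) = 0 := by rw [map_sub, hψ', hψ', sub_self]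
    obtain ⟨χ, hχ⟩ := S.exists_of_pull_eq_zero h2
    exact ⟨χ, S.hol_of_pull (by rw [hχ]; exact (hψ m).sub ((hψ (m + 1)).mono (Nat.le_succ m))), hχ⟩
  choose χ hχ hχ' using h1
  obtain ⟨ω, hω, hω'⟩ := h''.lim t ht χ hχ
  have h3 : ∀ m, ψ m - Fn.pull S.g (ω m) = ψ 0 - Fn.pull S.g (ω 0) := by
    intro m
    induction m with
    | zero => rfl
    | succ m ih =>
      rw [← ih]
      have h4 := hχ' m
      rw [hω' m, map_sub] at h4
      have h5 : ψ m = ψ (m + 1) + (Fn.pull S.g (ω m) - Fn.pull S.g (ω (m + 1))) := by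
        rw [h4]; abel
      rw [h5]; abel
  refine ⟨ψ 0 - Fn.pull S.g (ω 0), fun m => ?_, ?_⟩
  · rw [← h3 m]
    exact (hψ m).sub ((hω m).pull S.g)
  · rw [map_sub, S.pull_pull, hψ', sub_zero]

end Ses

end GM

end Vale.Agent.P221
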