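import Vale.Agent.P221.GM

/-!
# P221: the class `KK` is closed under kernels, extensions, shifts; free modules are in `KK`
-/

namespace Vale.Agent.P221

namespace GM

variable {k : Type} [CommRing k]

/-! ### Products and projectivity -/

/-- the product of two graded modules -/
abbrev prod (M N : GM k) : GM k where
  A i := M.A i × N.A i
  act m _ _ h := (M.act m h).prodMap (N.act m h)
  comm m n _ _ _ _ h1 h2 h3 h4 x := Prod.ext (M.comm m n h1 h2 h3 h4 x.1)
    (N.comm m n h1 h2 h3 h4 x.2)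

/-- a retract of a projective module is projective -/
theorem Proj.retract {P : Set ℕ} {M M' : GM k} (f : Lin P M' M) (r : Lin P M M')
    (hr : ∀ i y, r.f i (f.f i y) = y) (hM : Proj P M) : Proj P M' := by
  intro Q π hπ
  let π' : Lin P (Q.prod M) M :=
    { f := fun i => (f.f i ∘ₗ π.f i ∘ₗ LinearMap.fst k _ _) + (LinearMap.snd k _ _) -
        (f.f i ∘ₗ r.f i ∘ₗ LinearMap.snd k _ _)
      comm := fun m hm i j h x => by
        change f.f j (π.f j (Q.act m h x.1)) + M.act m h x.2 - f.f j (r.f j (M.act m h x.2)) =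
          M.act m h (f.f i (π.f i x.1) + x.2 - f.f i (r.f i x.2))
        rw [π.comm m hm, f.comm m hm, r.comm m hm, f.comm m hm, map_sub, map_add] }
  have hπ' : ∀ i x, π'.f i x = f.f i (π.f i x.1) + x.2 - f.f i (r.f i x.2) := fun _ _ => rfl
  obtain ⟨s, hs⟩ := hM (Q.prod M) π' (fun i z => by
    obtain ⟨x, hx⟩ := hπ i (r.f i z)
    refine ⟨(x, z), ?_⟩
    change f.f i (π.f i x) + z - f.f i (r.f i z) = z
    rw [hx]
    abel)
  refine ⟨⟨fun i => LinearMap.fst k _ _ ∘ₗ s.f i ∘ₗ f.f i, fun m hm i j h x => ?_⟩, ?_⟩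
  · change (s.f j (f.f j (M'.act m h x))).1 = Q.act m h (s.f i (f.f i x)).1
    rw [f.comm m hm, s.comm m hm]
    rfl
  · intro i y
    change π.f i (s.f i (f.f i y)).1 = y
    have h1 := congrArg (r.f i) (hs i (f.f i y))
    rw [hπ', map_sub, map_add, hr, hr, hr, add_sub_cancel_right] at h1
    exact h1

theorem Proj.of_iso {P : Set ℕ} {M M' : GM k} (f : Lin P M' M) (hf : ∀ i, Function.Bijective (f.f i))
    (hM : Proj P M) : Proj P M' := by
  let r : Lin P M M' :=
    { f := fun i => (LinearEquiv.ofBijective (f.f i) (hf i)).symm.toLinearMap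
      comm := fun m hm i j h x => by
        apply (hf j).1
        rw [f.comm m hm]
        change (LinearEquiv.ofBijective (f.f j) (hf j))
          ((LinearEquiv.ofBijective (f.f j) (hf j)).symm _) = M.act m h
          ((LinearEquiv.ofBijective (f.f i) (hf i)) ((LinearEquiv.ofBijective (f.f i) (hf i)).symm _))
        rw [LinearEquiv.apply_symm_apply, LinearEquiv.apply_symm_apply] }
  exact Proj.retract f r (fun i y => (LinearEquiv.ofBijective (f.f i) (hf i)).symm_apply_apply y) hM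

/-- `M` is projective over all subalgebras -/
def Fr (M : GM k) : Prop := ∀ P : Set ℕ, Proj P M

/-! ### Twisted sums: the cocycle `c` gives a module structure on `M ⊕ R` -/

section twist

variable {M R : GM k} {t : ℤ}

open Classical in
/-- the operators on `M ⊕ R[t]` given by a family of functionals -/
noncomputable def twAct (D : ℕ → Prop) (c : ∀ m : ℕ, Fn M R (t + ((m : ℤ) + 1))) (m : ℕ) {i j : ℤ}
    (h : i + ((m : ℤ) + 1) = j) : (M.A i × R.A (i + t)) →ₗ[k] (M.A j × R.A (j + t)) :=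
  if D m then
    LinearMap.prod (M.act m h ∘ₗ LinearMap.fst k _ _)
      ((c m (ix (i := i) (j := j + t) (by omega)) ∘ₗ LinearMap.fst k _ _) +
        (R.act m (i := i + t) (j := j + t) (by omega) ∘ₗ LinearMap.snd k _ _))
  else 0

theorem twAct_pos {D : ℕ → Prop} {c : ∀ m : ℕ, Fn M R (t + ((m : ℤ) + 1))} {m : ℕ} {i j : ℤ}
    (h : i + ((m : ℤ) + 1) = j) (hm : D m) (x : M.A i × R.A (i + t)) :
    twAct D c m h x = (M.act m h x.1, c m (ix (i := i) (j := j + t) (by omega)) x.1 +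
      R.act m (i := i + t) (j := j + t) (by omega) x.2) := by
  rw [twAct, if_pos hm]
  rfl

theorem twAct_neg {D : ℕ → Prop} {c : ∀ m : ℕ, Fn M R (t + ((m : ℤ) + 1))} {m : ℕ} {i j : ℤ}
    (h : i + ((m : ℤ) + 1) = j) (hm : ¬ D m) (x : M.A i × R.A (i + t)) :
    twAct D c m h x = 0 := by
  rw [twAct, if_neg hm]
  rfl

theorem tw_aux {G : Type} [AddCommGroup G] {a b c e f g : G} (h1 : a - b = c - e) (h2 : f = g) :
    c + (b + f) = a + (e + g) := by
  rw [h2, ← add_assoc, ← add_assoc, sub_eq_sub_iff_add_eq_add.1 h1]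

/-- the cocycle condition -/
def Coc (D : ℕ → Prop) (c : ∀ m : ℕ, Fn M R (t + ((m : ℤ) + 1))) : Prop :=
  ∀ m n : ℕ, D m → D n →
    Th n (t' := t + ((m : ℤ) + 1) + ((n : ℤ) + 1)) rfl (c m) =
      Th m (t' := t + ((m : ℤ) + 1) + ((n : ℤ) + 1)) (by omega) (c n)

/-- the twisted sum -/
noncomputable abbrev tw (D : ℕ → Prop) (c : ∀ m : ℕ, Fn M R (t + ((m : ℤ) + 1))) (hc : Coc D c) : GM k where
  A i := M.A i × R.A (i + t)
  act m _ _ h := twAct D c m h
  comm m n i j j' l h1 h2 h3 h4 x := by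
    by_cases hm : D m
    · by_cases hn : D n
      · rw [twAct_pos h1 hm, twAct_pos h2 hn, twAct_pos h3 hn, twAct_pos h4 hm]
        refine Prod.ext (M.comm m n h1 h2 h3 h4 x.1) ?_
        have e1 : Th n (t' := t + ((m : ℤ) + 1) + ((n : ℤ) + 1)) rfl (c m)
            (ix (i := i) (j := l + t) (by omega)) x.1 =
            Th m (t' := t + ((m : ℤ) + 1) + ((n : ℤ) + 1)) (by omega) (c n)
            (ix (i := i) (j := l + t) (by omega)) x.1 := by rw [hc m n hm hn]
        rw [Th_apply n rfl (c m) (i := i) (j := l + t) (by omega) h3 (by omega)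
            (j' := j + t) (by omega) (by omega),
          Th_apply m (by omega) (c n) (i := i) (j := l + t) (by omega) h1 (by omega)
            (j' := j' + t) (by omega) (by omega)] at e1
        have e2 := R.comm m n (i := i + t) (j := j + t) (j' := j' + t) (l := l + t)
          (by omega) (by omega) (by omega) (by omega) x.2
        change c n (ix (i := j) (j := l + t) (by omega)) (M.act m h1 x.1) +
            R.act n (i := j + t) (j := l + t) (by omega)
              (c m (ix (i := i) (j := j + t) (by omega)) x.1 +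
                R.act m (i := i + t) (j := j + t) (by omega) x.2) =
          c m (ix (i := j') (j := l + t) (by omega)) (M.act n h3 x.1) +
            R.act m (i := j' + t) (j := l + t) (by omega)
              (c n (ix (i := i) (j := j' + t) (by omega)) x.1 +
                R.act n (i := i + t) (j := j' + t) (by omega) x.2)
        rw [map_add, map_add]
        exact tw_aux e1 e2
      · rw [twAct_neg h2 hn, twAct_neg h3 hn, map_zero]
    · rw [twAct_neg h1 hm, twAct_neg h4 hm, map_zero]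

/-- the projection of the twisted sum -/
def twProj (P : Set ℕ) (D : ℕ → Prop) (c : ∀ m : ℕ, Fn M R (t + ((m : ℤ) + 1))) (hc : Coc D c)
    (hP : ∀ m ∈ P, D m) : Lin P (tw D c hc) M where
  f i := LinearMap.fst k _ _
  comm m hm i j h x := by
    change (twAct D c m h x).1 = M.act m h x.1
    rw [twAct_pos h (hP m hm)]

/-- functionals from families -/
def Fn.mk (g : ∀ i, M.A i →ₗ[k] R.A (i + t)) : Fn M R t
  | ⟨(i, _), h⟩ => h ▸ g i

theorem Fn.mk_apply (g : ∀ i, M.A i →ₗ[k] R.A (i + t)) (i : ℤ) : Fn.mk g (ix rfl) = g i := rfl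

/-- cocycles on projective modules are coboundaries -/
theorem exists_of_coc (D : ℕ → Prop) (hM : Proj {m | D m} M)
    (c : ∀ m : ℕ, Fn M R (t + ((m : ℤ) + 1))) (hc : Coc D c) :
    ∃ φ : Fn M R t, ∀ m, D m → Th m rfl φ = c m := by
  obtain ⟨s, hs⟩ := hM (tw D c hc) (twProj {m | D m} D c hc fun m h => h)
    (fun i x => ⟨(x, 0), rfl⟩)
  have hs1 : ∀ i x, (s.f i x).1 = x := hs
  refine ⟨Fn.mk fun i => LinearMap.snd k _ _ ∘ₗ s.f i, fun m hm => ?_⟩
  funext ⟨⟨i, j⟩, hij⟩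
  have hij' : i + (t + ((m : ℤ) + 1)) = j := hij
  obtain ⟨i', hi'⟩ : ∃ i', i + ((m : ℤ) + 1) = i' := ⟨_, rfl⟩
  obtain rfl : i' + t = j := by omega
  ext x
  refine (Th_apply m rfl _ hij' hi' rfl rfl (by omega) x).trans ?_
  rw [Fn.mk_apply, Fn.mk_apply]
  change (s.f i' (M.act m hi' x)).2 - R.act m _ (s.f i x).2 = c m (ix hij') x
  rw [s.comm m hm hi' x]
  change (twAct D c m hi' (s.f i x)).2 - R.act m _ (s.f i x).2 = c m (ix hij') x
  rw [twAct_pos hi' hm]
  change c m _ (s.f i x).1 + R.act m _ (s.f i x).2 - R.act m _ (s.f i x).2 = c m (ix hij') x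
  rw [add_sub_cancel_right, hs1]

end twist

section free

variable {P : Set ℕ} {q : ℕ → ℕ} {M R : GM k}

open Classical in
theorem Fr.surj (hM : Fr M) (hP : ∀ m, q m ∉ P) (hq : Function.Injective q) {t t' : ℤ} (m : ℕ)
    (ht : t + ((q m : ℤ) + 1) = t') (χ : Fn M R t') (hχ : Hol P q m χ) :
    ∃ φ : Fn M R t, Hol P q m φ ∧ Th (q m) ht φ = χ := by
  subst ht
  let c : ∀ a : ℕ, Fn M R (t + ((a : ℤ) + 1)) := fun a => if h : a = q m then h ▸ χ else 0
  have c0 : c (q m) = χ := by simp only [c, dif_pos]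
  have c1 : ∀ a, a ≠ q m → c a = 0 := fun a ha => by simp only [c, dif_neg ha]
  let D : ℕ → Prop := fun a => a ∈ P ∨ ∃ l, l ≤ m ∧ a = q l
  have hD : ∀ a, D a → a ≠ q m → Com a χ := by
    rintro a (ha | ⟨l, hl, rfl⟩) h
    · exact hχ.com a ha
    · exact hχ.com' l (lt_of_le_of_ne hl fun h' => h (h' ▸ rfl))
  have hc : Coc D c := by
    intro a b ha hb
    by_cases h1 : a = q m
    · subst h1
      by_cases h2 : b = q m
      · subst h2; rfl
      · rw [c1 b h2, map_zero, c0]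
        exact (com_iff_Th b rfl χ).1 (hD b hb h2)
    · rw [c1 a h1, map_zero]
      by_cases h2 : b = q m
      · subst h2
        rw [c0]
        exact ((com_iff_Th a (by omega) χ).1 (hD a ha h1)).symm
      · rw [c1 b h2, map_zero]
  obtain ⟨φ, hφ⟩ := exists_of_coc D (hM _) c hc
  refine ⟨φ, ⟨fun a ha => ?_, fun l hl => ?_⟩, ?_⟩
  · rw [com_iff_Th a rfl, hφ a (Or.inl ha), c1]
    rintro rfl
    exact hP m ha
  · rw [com_iff_Th (q l) rfl, hφ _ (Or.inr ⟨l, hl.le, rfl⟩), c1]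
    intro h
    exact hl.ne (hq h)
  · rw [hφ _ (Or.inr ⟨m, le_rfl, rfl⟩), c0]

open Classical in
theorem Fr.lim (hM : Fr M) (hP : ∀ m, q m ∉ P) (hq : Function.Injective q) {t : ℤ}
    (φ : ℕ → Fn M R t) (hφ : ∀ m, Hol P q m (φ m)) :
    ∃ ψ : ℕ → Fn M R t, (∀ m, Hol P q m (ψ m)) ∧ ∀ m, φ m = ψ m - ψ (m + 1) := by
  let Φ : ℕ → Fn M R t := fun m => ∑ i ∈ Finset.range m, φ i
  let N : ℕ → ℕ := fun a => if h : ∃ l, a = q l then h.choose + 1 else 0
  have N0 : ∀ a ∈ P, N a = 0 := fun a ha => by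
    have : ¬ ∃ l, a = q l := by rintro ⟨l, rfl⟩; exact hP l ha
    simp only [N, dif_neg this]
  have N1 : ∀ l, N (q l) = l + 1 := fun l => by
    have h : ∃ l', q l = q l' := ⟨l, rfl⟩
    have h2 : N (q l) = h.choose + 1 := dif_pos h
    rw [h2, ← hq h.choose_spec]
  let D : ℕ → Prop := fun a => a ∈ P ∨ ∃ l, a = q l
  have hD : ∀ a, D a → ∀ i, N a ≤ i → ∀ {t'} (ht : t + ((a : ℤ) + 1) = t'), Th a ht (φ i) = 0 := by
    rintro a (ha | ⟨l, rfl⟩) i hi t' ht
    · exact (com_iff_Th a ht _).1 ((hφ i).com a ha)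
    · rw [N1] at hi
      exact (com_iff_Th (q l) ht _).1 ((hφ i).com' l hi)
  have hΦ : ∀ a, D a → ∀ i, N a ≤ i → ∀ {t'} (ht : t + ((a : ℤ) + 1) = t'),
      Th a ht (Φ i) = Th a ht (Φ (N a)) := by
    intro a ha i hi t' ht
    induction i, hi using Nat.le_induction with
    | base => rfl
    | succ i hi ih =>
      have : Φ (i + 1) = Φ i + φ i := Finset.sum_range_succ _ _
      rw [this, map_add, ih, hD a ha i hi, add_zero]
  have hc : Coc (R := R) (M := M) (t := t) D fun a => Th a rfl (Φ (N a)) := by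
    intro a b ha hb
    change Th b _ (Th a rfl (Φ (N a))) = Th a _ (Th b rfl (Φ (N b)))
    rw [← hΦ a ha (max (N a) (N b)) (le_max_left _ _), ← hΦ b hb (max (N a) (N b))
      (le_max_right _ _)]
    exact Th_comm a b rfl rfl rfl (by omega) _
  obtain ⟨ω, hω⟩ := exists_of_coc D (hM _) _ hc
  refine ⟨fun m => ω - Φ m, fun m => ⟨fun a ha => ?_, fun l hl => ?_⟩, fun m => ?_⟩
  · rw [com_iff_Th a rfl, map_sub, hω a (Or.inl ha), hΦ a (Or.inl ha) m (by rw [N0 a ha]; omega),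
      sub_self]
  · rw [com_iff_Th (q l) rfl, map_sub, hω _ (Or.inr ⟨l, rfl⟩), hΦ _ (Or.inr ⟨l, rfl⟩) m
      (by rw [N1]; omega), sub_self]
  · have : Φ (m + 1) = Φ m + φ m := Finset.sum_range_succ _ _
    change φ m = ω - Φ m - (ω - Φ (m + 1))
    rw [this]
    abel

/-- free modules are in the class, for all targets and all degrees -/
theorem KK.of_fr (hM : Fr M) (hP : ∀ m, q m ∉ P) (hq : Function.Injective q) (t₀ : ℤ) :
    KK P q R M t₀ :=
  ⟨hM P, fun _ _ m _ ht χ hχ => hM.surj hP hq m ht χ hχ, fun _ _ φ hφ => hM.lim hP hq φ hφ⟩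

end free

/-! ### Kernels and extensions -/

section closure

variable {P : Set ℕ} {q : ℕ → ℕ} {M' M M'' R : GM k} {t₀ : ℤ}

/-- `M'` is projective if `M` and `M''` are -/
theorem Ses.proj_left (S : Ses M' M M'') (hM : Proj P M) (hM'' : Proj P M'') : Proj P M' := by
  obtain ⟨r, hr⟩ := S.exists_retraction hM''
  exact Proj.retract (S.f.mono (Set.subset_univ _)) r hr hM

theorem Ses.proj_mid (S : Ses M' M M'') (hM' : Proj P M') (hM'' : Proj P M'') : Proj P M := by
  obtain ⟨r, hr⟩ := S.exists_retraction hM''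
  intro Q π hπ
  obtain ⟨s', hs'⟩ := hM' Q (π.comp r) (fun i y => by
    obtain ⟨x, hx⟩ := hπ i (S.f.f i y)
    exact ⟨x, by change r.f i (π.f i x) = y; rw [hx, hr]⟩)
  have hs1 : ∀ i y, r.f i (π.f i (s'.f i y)) = y := hs'
  let e : Lin P Q Q :=
    { f := fun i => LinearMap.id - s'.f i ∘ₗ r.f i ∘ₗ π.f i
      comm := fun m hm i j h x => by
        change Q.act m h x - s'.f j (r.f j (π.f j (Q.act m h x))) =
          Q.act m h (x - s'.f i (r.f i (π.f i x)))
        rw [π.comm m hm, r.comm m hm, s'.comm m hm, map_sub] }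
  have he : ∀ i x, e.f i x = x - s'.f i (r.f i (π.f i x)) := fun _ _ => rfl
  have he1 : ∀ i x, r.f i (π.f i (e.f i x)) = 0 := fun i x => by
    rw [he, map_sub, map_sub, hs1, sub_self]
  obtain ⟨s'', hs''⟩ := hM'' Q ((e.comp π).comp (S.g.mono (Set.subset_univ _))) (fun i y => by
    obtain ⟨w, hw⟩ := S.surj i y
    obtain ⟨z, hz⟩ := hπ i (w - S.f.f i (r.f i w))
    refine ⟨z, ?_⟩
    change S.g.f i (π.f i (e.f i z)) = y
    have h1 : r.f i (π.f i z) = 0 := by rw [hz, map_sub, hr, sub_self]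
    rw [he, h1, map_zero, sub_zero, hz, map_sub, S.gf, sub_zero, hw])
  have hs2 : ∀ i y, S.g.f i (π.f i (e.f i (s''.f i y))) = y := hs''
  have h0 : ∀ i x, S.g.f i x = 0 → r.f i x = 0 → x = 0 := fun i x h1 h2 => by
    obtain ⟨y, rfl⟩ := (S.exact i x).1 h1
    rw [hr] at h2
    rw [h2, map_zero]
  refine ⟨⟨fun i => s'.f i ∘ₗ r.f i + e.f i ∘ₗ s''.f i ∘ₗ S.g.f i ∘ₗ
    (LinearMap.id - π.f i ∘ₗ s'.f i ∘ₗ r.f i), fun m hm i j h x => ?_⟩, fun i x => ?_⟩
  · change s'.f j (r.f j (M.act m h x)) + e.f j (s''.f j (S.g.f j (M.act m h x -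
        π.f j (s'.f j (r.f j (M.act m h x)))))) =
      Q.act m h (s'.f i (r.f i x) + e.f i (s''.f i (S.g.f i (x - π.f i (s'.f i (r.f i x))))))
    rw [r.comm m hm, s'.comm m hm, π.comm m hm, ← map_sub, S.g.comm m (Set.mem_univ _),
      s''.comm m hm, e.comm m hm, map_add]
  · change π.f i (s'.f i (r.f i x) + e.f i (s''.f i (S.g.f i (x - π.f i (s'.f i (r.f i x)))))) = x
    rw [map_add]
    have h1 : x - π.f i (s'.f i (r.f i x)) -
        π.f i (e.f i (s''.f i (S.g.f i (x - π.f i (s'.f i (r.f i x)))))) = 0 := by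
      apply h0
      · rw [map_sub, hs2, sub_self]
      · rw [map_sub, he1, map_sub, hs1, sub_self, sub_zero]
    rw [← sub_eq_zero.1 h1]
    abel

theorem KK.sub (S : Ses M' M M'') (h : KK P q R M t₀) (h'' : KK P q R M'' t₀) :
    KK P q R M' t₀ := by
  refine ⟨S.proj_left h.proj h''.proj, fun t ht m t' ht' χ hχ => ?_, fun t ht φ hφ => ?_⟩
  · obtain ⟨χ1, h1, rfl⟩ := S.lift h'' (t := t') (by omega) m hχ
    obtain ⟨φ, h2, rfl⟩ := h.surj t ht m ht' χ1 h1
    exact ⟨Fn.pull S.f φ, h2.pull S.f, Th_pull S.f (Set.mem_univ _) ht' φ⟩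
  · choose φ1 h1 h2 using fun m => S.lift h'' ht m (hφ m)
    obtain ⟨ψ, h3, h4⟩ := h.lim t ht φ1 h1
    refine ⟨fun m => Fn.pull S.f (ψ m), fun m => (h3 m).pull S.f, fun m => ?_⟩
    rw [← h2 m, h4 m, map_sub]

theorem KK.ext (S : Ses M' M M'') (h' : KK P q R M' t₀) (h'' : KK P q R M'' t₀) :
    KK P q R M t₀ := by
  refine ⟨S.proj_mid h'.proj h''.proj, fun t ht m t' ht' χ hχ => ?_, fun t ht φ hφ => ?_⟩
  · obtain ⟨φ', h1, h2⟩ := h'.surj t ht m ht' (Fn.pull S.f χ) (hχ.pull S.f)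
    obtain ⟨φ1, h3, rfl⟩ := S.lift h'' ht m h1
    have h4 : Fn.pull S.f (χ - Th (q m) ht' φ1) = 0 := by
      rw [map_sub, ← Th_pull S.f (Set.mem_univ _), h2, sub_self]
    obtain ⟨χ2, h5⟩ := S.exists_of_pull_eq_zero h4
    have h6 : Hol P q m χ2 := S.hol_of_pull (by rw [h5]; exact hχ.sub (h3.Th (q m) ht'))
    obtain ⟨φ2, h7, h8⟩ := h''.surj t ht m ht' χ2 h6
    refine ⟨φ1 + Fn.pull S.g φ2, h3.add (h7.pull S.g), ?_⟩
    rw [map_add, Th_pull S.g (Set.mem_univ _), h8, h5]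
    abel
  · obtain ⟨ψ', h1, h2⟩ := h'.lim t ht (fun m => Fn.pull S.f (φ m)) fun m => (hφ m).pull S.f
    choose ψ1 h3 h4 using fun m => S.lift h'' ht m (h1 m)
    have h5 : ∀ m, ∃ χ : Fn M'' R t, Hol P q m χ ∧ Fn.pull S.g χ = φ m - (ψ1 m - ψ1 (m + 1)) := by
      intro m
      have h6 : Fn.pull S.f (φ m - (ψ1 m - ψ1 (m + 1))) = 0 := by
        rw [map_sub, map_sub, h4, h4, h2 m, sub_self]
      obtain ⟨χ, hχ⟩ := S.exists_of_pull_eq_zero h6
      exact ⟨χ, S.hol_of_pull (by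
        rw [hχ]
        exact (hφ m).sub ((h3 m).sub ((h3 (m + 1)).mono (Nat.le_succ m)))), hχ⟩
    choose χ h6 h7 using h5
    obtain ⟨ω, h8, h9⟩ := h''.lim t ht χ h6
    refine ⟨fun m => ψ1 m + Fn.pull S.g (ω m), fun m => (h3 m).add ((h8 m).pull S.g), fun m => ?_⟩
    have h10 := h7 m
    rw [h9 m, map_sub] at h10
    have h11 : φ m = (Fn.pull S.g (ω m) - Fn.pull S.g (ω (m + 1))) + (ψ1 m - ψ1 (m + 1)) := by
      rw [h10]; abel
    change φ m = ψ1 m + Fn.pull S.g (ω m) - (ψ1 (m + 1) + Fn.pull S.g (ω (m + 1)))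
    rw [h11]
    abel

end closure

/-! ### The zero module, isomorphisms -/

section zero

variable {P : Set ℕ} {q : ℕ → ℕ} {M' M R : GM k} {t₀ : ℤ}

theorem Fn.eq_of_subsingleton (hM : ∀ i, Subsingleton (M.A i)) {t : ℤ} (φ ψ : Fn M R t) : φ = ψ := by
  funext r
  ext x
  rw [(hM r.1.1).elim x 0, map_zero, map_zero]

theorem Fr.of_subsingleton (hM : ∀ i, Subsingleton (M.A i)) : Fr M := fun P Q π _ =>
  ⟨⟨fun _ => 0, fun m _ i j h x => by
    rw [LinearMap.zero_apply, LinearMap.zero_apply, map_zero]⟩, fun i x => (hM i).elim _ _⟩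

theorem KK.of_subsingleton (hM : ∀ i, Subsingleton (M.A i)) : KK P q R M t₀ :=
  ⟨Fr.of_subsingleton hM P, fun _ _ _ _ _ _ _ => ⟨0, Hol.zero, Fn.eq_of_subsingleton hM _ _⟩,
    fun _ _ _ _ => ⟨0, fun _ => Hol.zero, fun _ => Fn.eq_of_subsingleton hM _ _⟩⟩

/-- the zero module -/
def zero (k : Type) [CommRing k] : GM k where
  A _ := PUnit
  act _ _ _ _ := 0
  comm _ _ _ _ _ _ _ _ _ _ _ := rfl

theorem zero_subsingleton (i : ℤ) : Subsingleton ((zero k).A i) :=
  inferInstanceAs (Subsingleton PUnit)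

theorem KK.of_iso (f : Lin Set.univ M' M) (hf : ∀ i, Function.Bijective (f.f i))
    (h : KK P q R M t₀) : KK P q R M' t₀ :=
  KK.sub (M := M) (M'' := zero k)
    { f := f
      g := ⟨fun _ => 0, fun m _ i j h x => by
        rw [LinearMap.zero_apply, LinearMap.zero_apply, map_zero]⟩
      inj := fun i => (hf i).1
      surj := fun i y => ⟨0, (zero_subsingleton i).elim _ _⟩
      exact := fun i x => ⟨fun _ => (hf i).2 x, fun _ => (zero_subsingleton i).elim _ _⟩ }
    h (KK.of_subsingleton zero_subsingleton)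

end zero

/-! ### Shifts -/

section shift

/-- transport along an equality of degrees -/
def cast (M : GM k) {i j : ℤ} (h : i = j) : M.A i →ₗ[k] M.A j := h ▸ LinearMap.id

theorem cast_rfl (M : GM k) {i : ℤ} (x : M.A i) : M.cast rfl x = x := rfl

theorem cast_cast (M : GM k) {i j l : ℤ} (h : i = j) (h' : j = l) (x : M.A i) :
    M.cast h' (M.cast h x) = M.cast (h.trans h') x := by subst h h'; rfl

theorem act_cast (M : GM k) (m : ℕ) {i i' j : ℤ} (hi : i = i') (h : i' + ((m : ℤ) + 1) = j)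
    (x : M.A i) : M.act m h (M.cast hi x) = M.act m (by omega) x := by subst hi; rfl

theorem cast_act (M : GM k) (m : ℕ) {i j j' : ℤ} (hj : j = j') (h : i + ((m : ℤ) + 1) = j)
    (x : M.A i) : M.cast hj (M.act m h x) = M.act m (by omega) x := by subst hj; rfl

theorem Lin.f_cast {P : Set ℕ} {M N : GM k} (f : Lin P M N) {i i' : ℤ} (hi : i = i') (x : M.A i) :
    f.f i' (M.cast hi x) = N.cast hi (f.f i x) := by subst hi; rfl

theorem Fn.apply_cast {M N : GM k} {t : ℤ} (φ : Fn M N t) {i i' j : ℤ} (hi : i = i')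
    (h : i' + t = j) (x : M.A i) : φ (ix h) (M.cast hi x) = φ (ix (i := i) (by omega)) x := by
  subst hi; rfl

/-- the shift: `M[2a]` -/
abbrev shift (M : GM k) (a : ℤ) : GM k where
  A i := M.A (i - a)
  act m _ _ h := M.act m (by omega)
  comm m n _ _ _ _ _ _ _ _ x := M.comm m n _ _ _ _ x

theorem shift_act (M : GM k) (a : ℤ) (m : ℕ) {i j : ℤ} (h : i + ((m : ℤ) + 1) = j)
    (x : M.A (i - a)) : (M.shift a).act m h x = M.act m (by omega) x := rfl

theorem shift_cast (M : GM k) (a : ℤ) {i j : ℤ} (h : i = j) (x : M.A (i - a)) :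
    (M.shift a).cast h x = M.cast (by omega) x := by subst h; rfl

variable {P : Set ℕ} {q : ℕ → ℕ} {M R : GM k} {t₀ : ℤ}

theorem Proj.shift (hM : Proj P M) (a : ℤ) : Proj P (M.shift a) := by
  intro Q π hπ
  let π' : Lin P (Q.shift (-a)) M :=
    { f := fun i => M.cast (by omega) ∘ₗ π.f (i - -a)
      comm := fun m hm i j h x => by
        change M.cast _ (π.f (j - -a) (Q.act m _ x)) = M.act m h (M.cast _ (π.f (i - -a) x))
        rw [π.comm m hm (by omega), act_cast]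
        exact M.cast_act m _ _ _ }
  obtain ⟨s, hs⟩ := hM (Q.shift (-a)) π' (fun i x => by
    obtain ⟨z, hz⟩ := hπ (i - -a) (M.cast (by omega) x)
    refine ⟨z, ?_⟩
    change M.cast _ (π.f (i - -a) z) = x
    rw [hz, cast_cast]
    rfl)
  have hs1 : ∀ i x, M.cast (by omega) (π.f (i - -a) (s.f i x)) = x := hs
  refine ⟨⟨fun i => Q.cast (by omega) ∘ₗ s.f (i - a), fun m hm i j h x => ?_⟩, fun i x => ?_⟩
  · change Q.cast _ (s.f (j - a) (M.act m _ x)) = Q.act m h (Q.cast _ (s.f (i - a) x))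
    rw [s.comm m hm (by omega), act_cast]
    exact Q.cast_act m _ _ _
  · change π.f i (Q.cast _ (s.f (i - a) x)) = x
    rw [π.f_cast, shift_cast]
    exact hs1 (i - a) x

theorem Fr.shift (hM : Fr M) (a : ℤ) : Fr (M.shift a) := fun P => (hM P).shift a

/-- functionals on the shift -/
def Fn.sh {a t t' : ℤ} (h : t' = t + a) : Fn M R t' →ₗ[k] Fn (M.shift a) R t where
  toFun φ := fun r => φ (ix (i := r.1.1 - a) (j := r.1.2) (by have := r.2; omega))
  map_add' _ _ := rfl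
  map_smul' _ _ := rfl

theorem Fn.sh_apply {a t t' : ℤ} (h : t' = t + a) (φ : Fn M R t') {i j : ℤ} (hij : i + t = j)
    (x : M.A (i - a)) : Fn.sh h φ (ix hij) x = φ (ix (i := i - a) (j := j) (by omega)) x := rfl

theorem Fn.sh_injective {a t t' : ℤ} (h : t' = t + a) :
    Function.Injective (Fn.sh (M := M) (R := R) h) := by
  intro φ ψ hφ
  funext ⟨⟨i, j⟩, hij⟩
  have hij' : i + t' = j := hij
  ext x
  have h0 : i = i + a - a := by omega
  have h1 : Fn.sh h φ (ix (i := i + a) (j := j) (by omega)) (M.cast h0 x) =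
      Fn.sh h ψ (ix (i := i + a) (j := j) (by omega)) (M.cast h0 x) := by rw [hφ]
  rw [Fn.sh_apply, Fn.sh_apply, Fn.apply_cast φ h0, Fn.apply_cast ψ h0] at h1
  exact h1

theorem Fn.sh_surjective {a t t' : ℤ} (h : t' = t + a) :
    Function.Surjective (Fn.sh (M := M) (R := R) h) := by
  intro ψ
  refine ⟨fun r => ψ (ix (i := r.1.1 + a) (j := r.1.2) (by have := r.2; omega)) ∘ₗ
    M.cast (i := r.1.1) (j := r.1.1 + a - a) (by omega), ?_⟩
  funext ⟨⟨i, j⟩, hij⟩
  have hij' : i + t = j := hij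
  ext x
  change ψ (ix (i := i - a + a) (j := j) (by omega))
    (M.cast (i := i - a) (j := i - a + a - a) (by omega) x) = ψ (ix hij') x
  have h0 : i = i - a + a := by omega
  rw [← M.shift_cast a h0 x]
  exact Fn.apply_cast ψ h0 _ x

theorem Th_sh {a t t' u u' : ℤ} (h : t' = t + a) (h' : u' = u + a) (m : ℕ)
    (ht : t + ((m : ℤ) + 1) = u) (ht' : t' + ((m : ℤ) + 1) = u') (φ : Fn M R t') :
    Th m ht (Fn.sh h φ) = Fn.sh h' (Th m ht' φ) := by
  funext ⟨⟨i, j⟩, hij⟩
  have hij' : i + u = j := hij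
  ext x
  have e1 := Th_apply m ht (Fn.sh h φ) hij' rfl (by omega) (j' := i + t) rfl (by omega) x
  have e2 := Th_apply m ht' φ (i := i - a) (j := j) (i' := i + ((m : ℤ) + 1) - a) (by omega)
    (by omega) (by omega) (j' := i + t) (by omega) (by omega) x
  exact e1.trans e2.symm

theorem Com.sh {a t t' : ℤ} (h : t' = t + a) {m : ℕ} {φ : Fn M R t'} :
    Com m (Fn.sh h φ) ↔ Com m φ := by
  rw [com_iff_Th m rfl, com_iff_Th m rfl, Th_sh h (u' := t' + ((m : ℤ) + 1)) (by omega) m rfl rfl]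
  constructor
  · intro h1
    exact Fn.sh_injective (by omega) (h1.trans (map_zero _).symm)
  · intro h1
    rw [h1, map_zero]

theorem Hol.sh {a t t' : ℤ} (h : t' = t + a) {m : ℕ} {φ : Fn M R t'} :
    Hol P q m (Fn.sh h φ) ↔ Hol P q m φ :=
  ⟨fun h1 => ⟨fun i hi => (Com.sh h).1 (h1.com i hi), fun l hl => (Com.sh h).1 (h1.com' l hl)⟩,
    fun h1 => ⟨fun i hi => (Com.sh h).2 (h1.com i hi), fun l hl => (Com.sh h).2 (h1.com' l hl)⟩⟩

theorem KK.shift (hM : KK P q R M t₀) (a : ℤ) {t₁ : ℤ} (h₁ : t₀ - a ≤ t₁) :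
    KK P q R (M.shift a) t₁ := by
  refine ⟨hM.proj.shift a, fun t ht m t' ht' χ hχ => ?_, fun t ht φ hφ => ?_⟩
  · obtain ⟨χ1, rfl⟩ := Fn.sh_surjective (t' := t' + a) rfl χ
    obtain ⟨φ, h1, h2⟩ := hM.surj (t + a) (by omega) m (t' := t' + a) (by omega) χ1
      ((Hol.sh rfl).1 hχ)
    exact ⟨Fn.sh rfl φ, (Hol.sh rfl).2 h1, by rw [Th_sh rfl rfl (q m) ht' (by omega), h2]⟩
  · choose φ1 hφ1 using fun m => Fn.sh_surjective (t' := t + a) rfl (φ m)
    obtain ⟨ψ, h1, h2⟩ := hM.lim (t + a) (by omega) φ1 fun m =>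
      (Hol.sh rfl).1 (by rw [hφ1 m]; exact hφ m)
    refine ⟨fun m => Fn.sh rfl (ψ m), fun m => (Hol.sh rfl).2 (h1 m), fun m => ?_⟩
    rw [← hφ1 m, h2 m, map_sub]

end shift

end GM

end Vale.Agent.P221
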